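import Vale.Agent.P338Z.Nm.Top
import Vale.Agent.P338Z.Gen.Top
import Vale.Agent.P338Z.Ps.Ctl
import Vale.Agent.P338Z.Ps.Dia
import Vale.Agent.P338Z.M.Core

/-!
P338 power saving, glue (7): the generator of the fast step has the required properties; the final
statement from the properties of the fast step.
-/

namespace Vale.Agent.P338Z

open Vale.Agent.Lib.PolyTime
open Vale.Agent.P338.R2.H898 (MTM Multiplies mulTime)
open Vale.Agent.P338.R3
open Vale.Agent.P338.R3.H282 (bfly)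
open Vale.Agent.P338.R3.H313 (PV GP KP)
open Vale.Agent.P338.R3.H501.Rad (aR)
open Vale.Agent.P338.R3.H968 (CPar Cell DS)
open Vale.Agent.P338.R3.H898 (Ex aZero cZero arr arr_add arr_congr)
open Vale.Agent.P338.R3.H257 (MArr cells)
open Vale.Agent.P338.R3.H121 (cpar wW bW)
open Vale.Agent.P338.R3.H527 (flatC cells_flatC)

namespace Nm

theorem hF_eq (p : ℕ) (F : ℕ → Cell) : hF p F = bfly p F := rfl

theorem flatC_bfly (b : ℕ) (F : MArr) : bfly (b + 2) (flatC F) = flatC (bfly b F) := by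
  funext i
  unfold bfly flatC
  rw [H527.testBit_add_two]
  have h2 : 2 ^ (b + 2) = 4 * 2 ^ b := by rw [pow_add]; ring
  cases h : (i / 4).testBit b
  · have e1 : (i + 4 * 2 ^ b) / 4 = i / 4 + 2 ^ b := by omega
    have e2 : (i + 4 * 2 ^ b) / 2 % 2 = i / 2 % 2 := by omega
    have e3 : (i + 4 * 2 ^ b) % 2 = i % 2 := by omega
    simp only [h2, e1, e2, e3]
    simp [h]
  · have h1 : 2 ^ b ≤ i / 4 := Nat.ge_two_pow_of_testBit h
    have e1 : (i - 4 * 2 ^ b) / 4 = i / 4 - 2 ^ b := by omega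
    have e2 : (i - 4 * 2 ^ b) / 2 % 2 = i / 2 % 2 := by omega
    have e3 : (i - 4 * 2 ^ b) % 2 = i % 2 := by omega
    simp only [h2, e1, e2, e3]
    simp [h]

theorem flatC_foldr (B : List ℕ) (F : MArr) :
    (B.map (· + 2)).foldr bfly (flatC F) = flatC (B.foldr bfly F) := by
  induction B with
  | nil => rfl
  | cons b B ih => rw [List.map_cons, List.foldr_cons, List.foldr_cons, ih, flatC_bfly]

section alg

variable {M : Type*} [AddCommGroup M]

theorem bfly_comm (b c : ℕ) (f : ℕ → M) : bfly b (bfly c f) = bfly c (bfly b f) := by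
  by_cases h : b = c
  · rw [h]
  funext u
  have e : u ^^^ 2 ^ b ^^^ 2 ^ c = u ^^^ 2 ^ c ^^^ 2 ^ b := by
    rw [Nat.xor_assoc, Nat.xor_comm (2 ^ b), Nat.xor_assoc]
  simp only [bfly_xor, testBit_xor_ne h, testBit_xor_ne (Ne.symm h), e]
  cases u.testBit b <;> cases u.testBit c <;> simp only [if_true, Bool.false_eq_true, if_false] <;>
    abel

theorem foldr_bfly_perm {B B' : List ℕ} (h : B.Perm B') (f : ℕ → M) :
    B.foldr bfly f = B'.foldr bfly f := by
  induction h with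
  | nil => rfl
  | cons _ _ ih => rw [List.foldr_cons, List.foldr_cons, ih]
  | swap => exact bfly_comm _ _ _
  | trans _ _ h1 h2 => exact h1.trans h2

theorem foldr_bfly_congr {n : ℕ} {B : List ℕ} (hB : ∀ b ∈ B, b < n) {f g : ℕ → M}
    (h : ∀ u < 2 ^ n, f u = g u) : ∀ u < 2 ^ n, B.foldr bfly f u = B.foldr bfly g u := by
  induction B with
  | nil => exact h
  | cons b B ih =>
    intro u hu
    have h1 := ih fun c hc => hB c (List.mem_cons_of_mem _ hc)
    have h2 : u ^^^ 2 ^ b < 2 ^ n := Nat.xor_lt_two_pow hu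
      (Nat.pow_lt_pow_right (by norm_num) (hB b List.mem_cons_self))
    rw [List.foldr_cons, List.foldr_cons, bfly_xor, bfly_xor, h1 u hu, h1 _ h2]

end alg

/-- The digits in increasing order. -/
def srt (d : ℕ) (J : List ℕ) : List ℕ := (List.range d).filter fun i => decide (i ∈ J)

theorem srt_sorted (d : ℕ) (J : List ℕ) : (srt d J).Pairwise (· < ·) :=
  List.Pairwise.filter _ List.pairwise_lt_range

theorem srt_lt {d : ℕ} {J : List ℕ} : ∀ i ∈ srt d J, i < d := fun _ hi =>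
  List.mem_range.1 (List.mem_of_mem_filter hi)

theorem srt_perm {d : ℕ} {J : List ℕ} (hn : J.Nodup) (h : ∀ i ∈ J, i < d) : (srt d J).Perm J := by
  refine (List.perm_ext_iff_of_nodup (List.nodup_range.filter _) hn).2 fun i => ?_
  simp only [List.mem_filter, List.mem_range, decide_eq_true_eq]
  exact ⟨fun h1 => h1.2, fun h1 => ⟨h i h1, h1⟩⟩

/-- The passes that append the zero cells. -/
def tlP (p : PV) : List Ps :=
  [pMv true (2 ^ (KP p + 2))] ++ ([pExt (3 * 2 ^ (KP p + 2))] ++ [pMv false (4 * 2 ^ (KP p + 2))])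

/-- The zero cells. -/
def tlC (p : PV) : List Cell := List.replicate (3 * 2 ^ (KP p + 2)) cZero

theorem ex_zeros (P : CPar) (D : DS) (k : ℕ) : ∀ l : List Cell, Ex P (List.replicate k aZero)
    { D with X := ⟨l, []⟩ } { D with X := ⟨List.replicate k cZero ++ l, []⟩ } := by
  induction k with
  | zero => exact fun l => .nil _
  | succ k ih =>
    intro l
    rw [List.replicate_succ, List.replicate_succ', List.append_assoc]
    exact .cons (.zero _ l rfl) (ih (cZero :: l))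

theorem pow_KP (p : PV) : 2 ^ (KP p + 2) = 4 * 2 ^ KP p := by ring

theorem tail_ok (p : PV) : TailOK Fx p (tlC p) (acts (bP p) (tlP p)) := by
  intro D F
  have e : acts (bP p) [pExt (3 * 2 ^ (KP p + 2))] =
      List.replicate (3 * 2 ^ (KP p + 2)) aZero := by
    simp [acts, pacts, plen, pins, pExt, H313.Ctl.reps, H313.Ctl.rep]
  have hl : (cells (2 ^ KP p) F).length = 2 ^ (KP p + 2) := by
    rw [H257.length_cells, pow_KP]
  have h1 := DiaH.ex_R (P := cpar p.d p.s p.y) D (cells (2 ^ KP p) F) [] []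
  have h2 := ex_zeros (cpar p.d p.s p.y) D (3 * 2 ^ (KP p + 2))
    ((cells (2 ^ KP p) F).reverse ++ [])
  have h3 := DiaH.ex_L (P := cpar p.d p.s p.y) D (tlC p ++ (cells (2 ^ KP p) F).reverse) [] []
  have hl3 : (tlC p ++ (cells (2 ^ KP p) F).reverse).length = 4 * 2 ^ (KP p + 2) := by
    rw [List.length_append, List.length_reverse, hl, tlC, List.length_replicate]
    ring
  rw [hl] at h1
  rw [hl3] at h3
  simp only [List.append_nil] at h1 h2 h3
  rw [List.reverse_append, List.reverse_reverse, tlC, List.reverse_replicate] at h3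
  rw [tlP, acts_append, acts_append, DiaH.acts_mv, DiaH.acts_mv, e]
  exact Fx.of_ex (h1.append (h2.append h3))

/-- The array followed by zero cells. -/
def ext0 (n : ℕ) (F : MArr) (u : ℕ) : Cell := if u < n then flatC F u else cZero

theorem atT_blk (p : PV) (D : DS) (F : MArr) {G : ℕ → Cell}
    (h1 : ∀ u < 2 ^ (KP p + 2), G u = flatC F u)
    (h2 : ∀ u, 2 ^ (KP p + 2) ≤ u → u < 4 * 2 ^ (KP p + 2) → G u = cZero) :
    atT D (2 ^ KP p) F (tlC p) = blk D [] (4 * 2 ^ (KP p + 2)) G [] := by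
  have e : 4 * 2 ^ (KP p + 2) = 2 ^ (KP p + 2) + 3 * 2 ^ (KP p + 2) := by ring
  have e2 : arr (3 * 2 ^ (KP p + 2)) (fun i => G (2 ^ (KP p + 2) + i)) = tlC p := by
    rw [arr_congr (G := fun _ => cZero) fun i hi => h2 _ (by omega) (by omega)]
    simp [arr, tlC]
  unfold atT blk
  rw [e, arr_add, e2, arr_congr h1, cells_flatC, ← pow_KP, List.append_nil]

theorem had_ok {ν : Nets} (h : FH ν) (p : PV) (hds : p.d + 1 ≤ p.s) :
    HadOK Fx p (tlC p) fun t J => acts (bP p) (fastH ν p t (srt p.d J)) := by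
  intro t J ht hn hJ D F _ _ hF
  have hw := H121.le_wW (d := p.d) (s := p.s) p.y
  have hd := d_le_wW p.d p.s p.y
  obtain ⟨G, g1, g2⟩ := h p t (40 * wW p.d p.s p.y) (srt p.d J) hds ht (srt_sorted _ _) srt_lt
    (by show _ ≤ bW p.d p.s p.y; unfold bW; omega) D [] [] (ext0 (2 ^ (KP p + 2)) F)
  obtain ⟨g3, g4⟩ := g2 (fun u hu k _ => by
      rw [ext0, if_pos hu]
      rw [pow_KP] at hu
      exact hF _ (by omega) _ _ _) (fun u hu _ => by rw [ext0, if_neg (by omega)])
  have e1 : ((srt p.d J).map fun i => aR p.d * i + t + 2) =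
      ((srt p.d J).map ((GP p).bp t)).map (· + 2) := by
    rw [List.map_map]
    refine List.map_congr_left fun i _ => ?_
    show _ = (GP p).bp t i + 2
    rw [H282.Geo.bp, if_pos (show t < (GP p).a from ht)]
    rfl
  rw [atT_blk p D F (G := ext0 (2 ^ (KP p + 2)) F) (fun u hu => by rw [ext0, if_pos hu])
    (fun u hu _ => by rw [ext0, if_neg (by omega)]),
    atT_blk p D _ (G := G) (fun u hu => ?_) g4]
  · exact g1
  · rw [g3 u hu, e1, ← foldr_bfly_perm ((srt_perm hn hJ).map _), ← flatC_foldr]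
    refine foldr_bfly_congr (fun b hb => ?_) (fun v hv => by rw [ext0, if_pos hv]) u hu
    obtain ⟨c, hc, rfl⟩ := List.mem_map.1 hb
    obtain ⟨i, hi, rfl⟩ := List.mem_map.1 hc
    exact Nat.add_lt_add_right (H50.bp_lt (GP p) (by show p.d ≤ p.s; omega) (srt_lt i hi)) 2

theorem pt_tlP : PT ∅ tlP := by
  have h : PT ∅ fun p : PV => 2 ^ (KP p + 2) := PT.pow (PT.const 2)
    ((H313.pt_KP PT.id).add (PT.const 2)) ((H313.pbd_KP (A := ∅) PT.id).add (PBd.const 2))
  exact PT.append (pt_one (pt_pMv (PT.const true) h)) (PT.append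
    (pt_one (pt_pExt ((PT.const 3).mul h)))
    (pt_one (pt_pMv (PT.const false) ((PT.const 4).mul h))))

theorem pt_srt : PT ∅ fun x : PV × ℕ × List ℕ => srt x.1.d x.2.2 :=
  PT.filter (f := fun (x : PV × ℕ × List ℕ) i => decide (i ∈ x.2.2))
    (PT.range (H313.pt_d PT.id.fst) (H313.pbd_d (A := ∅) PT.id.fst))
    (PT.mem PT.id.fst.snd.snd PT.snd')

theorem genok_of {ν : Nets} (h1 : FH ν) (h2 : FPT ν) (h3 : FCOST ν) : GENOK := by
  obtain ⟨C, hC, h3⟩ := h3
  refine ⟨fun x => fastH ν x.1 x.2.1 (srt x.1.d x.2.2), tlP, tlC, C + 35, by positivity,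
    h2 PT.id.fst PT.id.snd.fst pt_srt, pt_tlP, fun p hds _ =>
      ⟨tail_ok p, had_ok h1 p hds, ?_, fun t J ht hn hJ => ?_⟩⟩
  · have e : sz (tlP p) = 32 * 2 ^ KP p + 3 := by
      simp only [tlP, sz_append, sz_cons, sz_nil, pMv, pExt, pow_KP]
      ring
    have hT : (1 : ℝ) ≤ 2 ^ KP p := one_le_pow₀ (by norm_num)
    have : 0 ≤ C * 2 ^ KP p := by positivity
    rw [e]
    push_cast
    linarith
  · have a1 := h3 p t (srt p.d J) hds ht (srt_sorted _ _) srt_lt
    rw [(srt_perm hn hJ).length_eq] at a1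
    have a2 : 0 ≤ 2 ^ KP p * (sg2 p.d + J.length * rt2 p.d) := by
      have := one_le_sg2 p.d
      have := rt2_pos p.d
      positivity
    have a3 : C * 2 ^ KP p * (((p.d : ℝ) + 1) ^ (1 / 8 : ℝ) + 1 +
        J.length * ((p.d : ℝ) + 1) ^ (-(1 / 2 ^ 87 : ℝ))) =
        C * (2 ^ KP p * (sg2 p.d + J.length * rt2 p.d)) := by
      rw [mul_assoc]
      rfl
    rw [a3] at a1
    linarith

end Nm

/-- **The final statement** from the properties of the fast step. -/
theorem glue {ν : Nets} (h1 : FH ν) (h2 : FPT ν) (h3 : FCOST ν) :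
    (∃ A : MTM, Multiplies A ∧ ∃ C : ℝ, 0 < C ∧ ∀ n : ℕ, 2 ≤ n →
      (mulTime A n : ℝ) ≤ C * (n * Real.log n ^ (1 - 1 / 2 ^ 89 : ℝ))) ∧
    ¬ ∀ A : MTM, Multiplies A → ∃ c : ℝ, 0 < c ∧ ∃ N : ℕ, 2 ≤ N ∧ ∀ n : ℕ, N ≤ n →
      c * (n * Real.log n) ≤ mulTime A n :=
  Nm.top core pcost ppt (Nm.genok_of h1 h2 h3)

end Vale.Agent.P338Z
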