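import Vale.Agent.P338Z.Fin
import Vale.Agent.P338Z.Net.All
import Vale.Agent.P338Z.Ps.Perm
import Vale.Agent.P338Z.Ps.Dia
import Vale.Agent.P338Z.Ps.Acc
import Vale.Agent.P338Z.Gen.Rot
import Vale.Agent.P338Z.Gen.Tree
import Vale.Agent.P338Z.Gen.UCall
import Vale.Agent.P338Z.Gen.Ush
import Vale.Agent.P338Z.Gen.Wadd
import Vale.Agent.P338Z.Gen.Xor
import Vale.Agent.P338Z.Gen.Sq
import Vale.Agent.P338Z.Gen.Frm
import Vale.Agent.P338Z.Gen.LayOk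
import Vale.Agent.P338Z.Gen.Pad
import Vale.Agent.P338Z.Gen.Hmid
import Vale.Agent.P338Z.Gen.Pt1
import Vale.Agent.P338Z.Gen.Pt2
import Vale.Agent.P338Z.Gen.CostF
import Vale.Agent.P338Z.Gen.Crec1

/-!
P338 power saving: the chain of the proved rows.
-/

open Vale.Agent.P338.R2.H898

namespace Vale.Agent.P338Z

theorem xor_ok {ν : Nets} (h : ν.Ok) : XOR ν :=
  xor_of (rot_of perm) (wadd_of (rot_of perm)
    (ush_of (rot_of perm) acc sub (ucall_of (rot_of perm) (scl_of perm) h) h)) h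

theorem fpt_ok {ν : Nets} (h : ν.Ok) : FPT ν :=
  fpt_of (cpt_of tree_pt (xpt_of (upt_of tree_pt h) h) h) h

theorem fcost_ok {ν : Nets} (h : ν.Ok) : FCOST ν := fcost_of lay h

theorem final_of_rows (hc : ∀ ν : Nets, XOR ν → ν.Ok → CREC ν)
    (hg : ∀ ν : Nets, HMID ν → ν.Ok → HG ν) (hf : ∀ ν : Nets, HG ν → ν.Ok → FH ν) :
    (∃ A : MTM, Multiplies A ∧ ∃ C : ℝ, 0 < C ∧ ∀ n : ℕ, 2 ≤ n →
      (mulTime A n : ℝ) ≤ C * (n * Real.log n ^ (1 - 1 / 2 ^ 89 : ℝ))) ∧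
    ¬ ∀ A : MTM, Multiplies A → ∃ c : ℝ, 0 < c ∧ ∃ N : ℕ, 2 ≤ N ∧ ∀ n : ℕ, N ≤ n →
      c * (n * Real.log n) ≤ mulTime A n := by
  obtain ⟨ν, h⟩ := Net.nets
  exact glue (hf ν (hg ν (hmid_of (hc ν (xor_ok h) h) h) h) h) (fpt_ok h) (fcost_ok h)

end Vale.Agent.P338Z
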